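import Vale.Agent.P039.Bn.H322.Hom

/-! The two sides of an alternating cycle. -/

set_option linter.unusedSectionVars false
set_option linter.unusedSimpArgs false

namespace Vale.Agent.P039.Bn.H322

open Vale.Agent.P039.Bn Finset

variable {B W V : Type} [Fintype B] [Fintype W] [Fintype V]
  [DecidableEq B] [DecidableEq W] [DecidableEq V]

variable (M : PMap B W V)

/-- `f` matches the blacks other than `b0` with the vertices not at `b0`. -/
structure Mat (b0 : B) (f : B → Fin 3) : Prop where
  avoid : ∀ b, b ≠ b0 → ∀ j, M.c (f b) b ≠ M.c j b0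
  inj : ∀ b b', b ≠ b0 → b' ≠ b0 → M.c (f b) b = M.c (f b') b' → b = b'

variable {M} in
theorem Mat.surj {b0 : B} {f : B → Fin 3} (hs : M.Sph) (h : Mat M b0 f) :
    ∀ v, (∀ j, M.c j b0 ≠ v) → ∃ b, b ≠ b0 ∧ M.c (f b) b = v := by
  have h1 : ((univ.erase b0).image fun b => M.c (f b) b) ⊆
      univ \ (univ.image fun j => M.c j b0) := by
    intro v hv
    obtain ⟨b, hb, rfl⟩ := Finset.mem_image.1 hv
    have hb' : b ≠ b0 := (Finset.mem_erase.1 hb).1
    simp only [Finset.mem_sdiff, Finset.mem_univ, true_and, Finset.mem_image, not_exists]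
    intro j hj
    exact h.avoid b hb' j hj.symm
  have h2 : ((univ.erase b0).image fun b => M.c (f b) b).card = Fintype.card B - 1 := by
    rw [Finset.card_image_of_injOn, Finset.card_erase_of_mem (Finset.mem_univ _),
      Finset.card_univ]
    intro b hb b' hb' hbb
    exact h.inj b b' (Finset.ne_of_mem_erase hb) (Finset.ne_of_mem_erase hb') hbb
  have h3 : (univ.image fun j => M.c j b0).card = 3 := by
    rw [Finset.card_image_of_injective, Finset.card_univ, Fintype.card_fin]
    intro j j' hj
    exact M.cls _ _ _ _ hj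
  have h4 : (univ \ (univ.image fun j => M.c j b0)).card = Fintype.card B - 1 := by
    rw [Finset.card_sdiff_of_subset (Finset.subset_univ _), h3, Finset.card_univ, hs.card]
    omega
  have h5 := Finset.eq_of_subset_of_card_le h1 (by rw [h2, h4])
  intro v hv
  have : v ∈ univ \ (univ.image fun j => M.c j b0) := by
    simp only [Finset.mem_sdiff, Finset.mem_univ, true_and, Finset.mem_image, not_exists]
    exact hv
  rw [← h5] at this
  obtain ⟨b, hb, hbv⟩ := Finset.mem_image.1 this
  exact ⟨b, (Finset.mem_erase.1 hb).1, hbv⟩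

/-- One alternating cycle: `f` and `g` on `D`, followed by `π`. -/
structure CycData (b0 : B) (f g : B → Fin 3) (π : Equiv.Perm B) (D : Finset B) : Prop where
  root : b0 ∉ D
  mat : Mat M b0 g
  step : ∀ b ∈ D, M.c (g (π b)) (π b) = M.c (f b) b
  inv : ∀ b, b ∈ D ↔ π b ∈ D
  conn : ∀ b ∈ D, ∀ b' ∈ D, π.SameCycle b b'
  ne : ∀ b ∈ D, f b ≠ g b
  nonempty : D.Nonempty

/-- the chain of the cycle -/
def xx (f g : B → Fin 3) (D : Finset B) : B × Fin 3 → ℝ := fun p =>
  if p.1 ∈ D then (if p.2 = f p.1 then 1 else 0) - (if p.2 = g p.1 then 1 else 0) else 0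

variable {M} {b0 : B} {f g : B → Fin 3} {π : Equiv.Perm B} {D : Finset B}

theorem xx_off {b : B} (hb : b ∉ D) (j : Fin 3) : xx f g D (b, j) = 0 := by simp [xx, hb]

theorem xx_f {b : B} (hb : b ∈ D) (hne : f b ≠ g b) : xx f g D (b, f b) = 1 := by
  simp [xx, hb, hne]

theorem xx_g {b : B} (hb : b ∈ D) (hne : f b ≠ g b) : xx f g D (b, g b) = -1 := by
  simp [xx, hb, hne.symm]

theorem xx_h {b : B} {j : Fin 3} (h1 : j ≠ f b) (h2 : j ≠ g b) : xx f g D (b, j) = 0 := by
  simp [xx, h1, h2]

theorem sum_three (F : Fin 3 → ℝ) {i j k : Fin 3} (hij : i ≠ j) (hik : i ≠ k) (hjk : j ≠ k) :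
    ∑ l, F l = F i + F j + F k := by
  have : (univ : Finset (Fin 3)) = {i, j, k} := by
    revert i j k; decide
  rw [this, Finset.sum_insert (by simp [hij, hik]), Finset.sum_insert (by simp [hjk]),
    Finset.sum_singleton]
  ring

theorem exists_third {i j : Fin 3} (_ : i ≠ j) : ∃ k : Fin 3, k ≠ i ∧ k ≠ j := fthird i j

theorem xx_cyc (h : CycData M b0 f g π D) : IsCyc M (xx f g D) := by
  constructor
  · intro b
    by_cases hb : b ∈ D
    · obtain ⟨k, hk1, hk2⟩ := fthird (f b) (g b)
      rw [sum_three (fun l => xx f g D (b, l)) (h.ne b hb) hk1.symm hk2.symm]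
      rw [xx_f hb (h.ne b hb), xx_g hb (h.ne b hb), xx_h hk1 hk2]; ring
    · exact Finset.sum_eq_zero fun j _ => xx_off hb j
  · intro v
    rw [Fintype.sum_prod_type]
    have h1 : ∀ b, ∑ j, (if M.c j b = v then xx f g D (b, j) else 0)
        = (if b ∈ D then (if M.c (f b) b = v then (1 : ℝ) else 0) else 0)
          - (if b ∈ D then (if M.c (g b) b = v then (1 : ℝ) else 0) else 0) := by
      intro b
      by_cases hb : b ∈ D
      · obtain ⟨k, hk1, hk2⟩ := fthird (f b) (g b)
        rw [sum_three (fun l => if M.c l b = v then xx f g D (b, l) else 0)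
          (h.ne b hb) hk1.symm hk2.symm]
        rw [xx_f hb (h.ne b hb), xx_g hb (h.ne b hb), xx_h hk1 hk2]
        simp only [hb, if_true]
        split_ifs <;> norm_num
      · simp [hb, xx_off hb]
    simp only [Finset.sum_congr rfl fun b _ => h1 b]
    rw [Finset.sum_sub_distrib, sub_eq_zero]
    rw [← Equiv.sum_comp π fun b => (if b ∈ D then (if M.c (g b) b = v then (1 : ℝ) else 0) else 0)]
    refine Finset.sum_congr rfl fun b _ => ?_
    by_cases hb : b ∈ D
    · have hb' := (h.inv b).1 hb
      simp only [hb, hb', if_true]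
      rw [h.step b hb]
    · have hb' : π b ∉ D := fun hh => hb ((h.inv b).2 hh)
      simp only [hb, hb', if_false]

theorem D_ne_root (h : CycData M b0 f g π D) {b : B} (hb : b ∈ D) : b ≠ b0 := by
  rintro rfl; exact h.root hb

/-- the cycles supported on one simple cycle are its multiples -/
theorem mult (h : CycData M b0 f g π D) {y : B × Fin 3 → ℝ} (hy : IsCyc M y)
    (h0 : ∀ p, xx f g D p = 0 → y p = 0) : ∃ l : ℝ, ∀ p, y p = l * xx f g D p := by
  -- the two entries at a black
  have hA : ∀ b ∈ D, y (b, g b) = - y (b, f b) := by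
    intro b hb
    obtain ⟨k, hk1, hk2⟩ := fthird (f b) (g b)
    have := hy.blk b
    rw [sum_three (fun l => y (b, l)) (h.ne b hb) hk1.symm hk2.symm] at this
    rw [h0 (b, k) (xx_h hk1 hk2)] at this
    linarith
  have hB : ∀ b ∈ D, y (π b, g (π b)) = - y (b, f b) := by
    intro b hb
    have hb' : π b ∈ D := (h.inv b).1 hb
    have := hy.vtx (M.c (f b) b)
    rw [← Finset.sum_subset (Finset.subset_univ {(b, f b), (π b, g (π b))})] at this
    · have hne : ((b, f b) : B × Fin 3) ≠ (π b, g (π b)) := by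
        intro hh
        rw [Prod.mk.injEq] at hh
        have h1 := hh.2
        rw [← hh.1] at h1
        exact h.ne b hb h1
      rw [Finset.sum_pair hne] at this
      simp only [if_true] at this
      rw [if_pos (h.step b hb)] at this
      linarith
    · rintro ⟨c, j⟩ _ hp
      simp only [Finset.mem_insert, Finset.mem_singleton, not_or, Prod.mk.injEq, not_and] at hp
      split_ifs with hv
      · by_cases hcD : c ∈ D
        · by_cases hj1 : j = f c
          · exfalso
            subst hj1
            have e1 := h.step c hcD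
            have e2 := h.step b hb
            have e3 : M.c (g (π c)) (π c) = M.c (g (π b)) (π b) := by
              rw [e1, e2]; exact hv
            have e4 := h.mat.inj _ _ (D_ne_root h ((h.inv c).1 hcD)) (D_ne_root h hb') e3
            have e5 := π.injective e4
            subst e5
            exact hp.1 rfl rfl
          · by_cases hj2 : j = g c
            · exfalso
              subst hj2
              have e3 : M.c (g c) c = M.c (g (π b)) (π b) := by
                rw [h.step b hb]; exact hv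
              have e4 := h.mat.inj _ _ (D_ne_root h hcD) (D_ne_root h hb') e3
              subst e4
              exact hp.2 rfl rfl
            · exact h0 _ (xx_h hj1 hj2)
        · exact h0 _ (xx_off hcD j)
      · rfl
  have hC : ∀ b ∈ D, y (π b, f (π b)) = y (b, f b) := by
    intro b hb
    have h1 := hA (π b) ((h.inv b).1 hb)
    have h2 := hB b hb
    linarith
  have hpow : ∀ (k : ℕ) b, b ∈ D → (π ^ k) b ∈ D ∧ y ((π ^ k) b, f ((π ^ k) b)) = y (b, f b) := by
    intro k
    induction k with
    | zero => intro b hb; exact ⟨hb, rfl⟩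
    | succ k ih =>
      intro b hb
      obtain ⟨i1, i2⟩ := ih b hb
      rw [pow_succ', Equiv.Perm.mul_apply]
      exact ⟨(h.inv _).1 i1, (hC _ i1).trans i2⟩
  obtain ⟨b1, hb1⟩ := h.nonempty
  refine ⟨y (b1, f b1), ?_⟩
  rintro ⟨b, j⟩
  by_cases hb : b ∈ D
  · have hcst : y (b, f b) = y (b1, f b1) := by
      obtain ⟨k, _, hk⟩ := (h.conn b1 hb1 b hb).exists_pow_eq'
      have := (hpow k b1 hb1).2
      rw [hk] at this
      exact this
    by_cases hj1 : j = f b
    · subst hj1
      rw [xx_f hb (h.ne b hb), hcst, mul_one]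
    · by_cases hj2 : j = g b
      · subst hj2
        rw [xx_g hb (h.ne b hb), hA b hb, hcst]; ring
      · rw [xx_h hj1 hj2, h0 _ (xx_h hj1 hj2), mul_zero]
  · rw [xx_off hb, h0 _ (xx_off hb j), mul_zero]

/-- the characteristic function -/
noncomputable def chi (I : Finset W) : W → ℝ := fun w => if w ∈ I then 1 else 0

/-- the two sides -/
theorem two_sides (hs : M.Sph) (h : CycData M b0 f g π D) :
    ∃ (s : ℝ) (I : Finset W), (s = 1 ∨ s = -1) ∧ I.Nonempty ∧ (∀ j, M.e j b0 ∉ I) ∧
      xx f g D = bd M (fun w => s * chi I w) := by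
  classical
  obtain ⟨n0, hn0⟩ := hom1 M hs (xx_cyc h)
  obtain ⟨b1, hb1⟩ := h.nonempty
  set t : ℝ := n0 (M.e (f b1 + 1) b1) with ht
  set T : Finset W := univ.filter fun w => t ≤ n0 w with hT
  have hTm : ∀ w, w ∈ T ↔ t ≤ n0 w := fun w => by simp [hT]
  have hsupp : ∀ p, xx f g D p = 0 → bd M (chi T) p = 0 := by
    intro p hp
    rw [hn0] at hp
    unfold bd at hp ⊢
    have he : n0 (M.e (p.2 + 1) p.1) = n0 (M.e (p.2 + 2) p.1) := by linarith
    unfold chi
    simp only [hTm]
    rw [he]; ring
  obtain ⟨l, hl⟩ := mult h (bd_cyc M (chi T)) hsupp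
  have hl1 : l = 1 := by
    have h1 := hl (b1, f b1)
    rw [xx_f hb1 (h.ne b1 hb1), mul_one] at h1
    have h2 : xx f g D (b1, f b1) = 1 := xx_f hb1 (h.ne b1 hb1)
    rw [hn0] at h2
    unfold bd at h1 h2
    simp only at h1 h2
    have h3 : M.e (f b1 + 1) b1 ∈ T := by rw [hTm]
    have h4 : M.e (f b1 + 2) b1 ∉ T := by
      rw [hTm, not_le, ht]; linarith
    unfold chi at h1
    rw [if_pos h3, if_neg h4] at h1
    linarith
  have hbd : ∀ p, bd M (chi T) p = xx f g D p := fun p => by rw [hl p, hl1, one_mul]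
  have hroot : ∀ i j, (M.e i b0 ∈ T ↔ M.e j b0 ∈ T) := by
    have hr : ∀ j, chi T (M.e (j + 1) b0) = chi T (M.e (j + 2) b0) := by
      intro j
      have := hbd (b0, j)
      rw [xx_off h.root] at this
      unfold bd at this
      linarith
    have hr' : ∀ j, (M.e (j + 1) b0 ∈ T ↔ M.e (j + 2) b0 ∈ T) := by
      intro j
      have := hr j
      unfold chi at this
      by_cases h1 : M.e (j + 1) b0 ∈ T <;> by_cases h2 : M.e (j + 2) b0 ∈ T <;>
        simp [h1, h2] at this ⊢
    intro i j
    rcases fcase j i with rfl | rfl | rfl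
    · exact Iff.rfl
    · have := hr' (i + 2)
      rw [f21, f22] at this; exact this
    · have := hr' (i + 1)
      rw [f11, f12] at this; exact this.symm
  have hx1 : ∃ p, xx f g D p ≠ 0 := ⟨(b1, f b1), by rw [xx_f hb1 (h.ne b1 hb1)]; norm_num⟩
  by_cases hr0 : M.e 0 b0 ∈ T
  · refine ⟨-1, Tᶜ, Or.inr rfl, ?_, ?_, ?_⟩
    · by_contra hne
      rw [Finset.not_nonempty_iff_eq_empty, Finset.compl_eq_empty_iff] at hne
      obtain ⟨p, hp⟩ := hx1
      apply hp
      rw [← hbd p]
      unfold bd chi
      simp [hne]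
    · intro j
      rw [Finset.mem_compl, not_not]
      exact (hroot 0 j).1 hr0
    · funext p
      rw [← hbd p]
      unfold bd chi
      by_cases h1 : M.e (p.2 + 1) p.1 ∈ T <;> by_cases h2 : M.e (p.2 + 2) p.1 ∈ T <;>
        simp [h1, h2]
  · refine ⟨1, T, Or.inl rfl, ⟨M.e (f b1 + 1) b1, by rw [hTm]⟩, ?_, ?_⟩
    · intro j hj
      exact hr0 ((hroot 0 j).2 hj)
    · funext p
      rw [← hbd p]
      unfold bd
      simp

end Vale.Agent.P039.Bn.H322
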