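import Vale.Agent.P039.Bn.H322.Euler

/-! The cycle lemma. -/

set_option linter.unusedSectionVars false
set_option linter.unusedSimpArgs false

namespace Vale.Agent.P039.Bn.H322

open Vale.Agent.P039.Bn Finset

variable {B W V : Type} [Fintype B] [Fintype W] [Fintype V]
  [DecidableEq B] [DecidableEq W] [DecidableEq V]

variable {M : PMap B W V} {b0 : B} {f g : B → Fin 3} {π : Equiv.Perm B} {D : Finset B}
  {s : ℝ} {I : Finset W}

theorem chi_eq_iff {I : Finset W} {w w' : W} : chi I w = chi I w' ↔ (w ∈ I ↔ w' ∈ I) := by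
  unfold chi
  by_cases h1 : w ∈ I <;> by_cases h2 : w' ∈ I <;> simp [h1, h2]

theorem xx_zero_iff (hs0 : s ≠ 0) (hx : xx f g D = bd M (fun w => s * chi I w)) (p : B × Fin 3) :
    xx f g D p = 0 ↔ (M.e (p.2 + 1) p.1 ∈ I ↔ M.e (p.2 + 2) p.1 ∈ I) := by
  rw [hx, ← chi_eq_iff]
  unfold bd
  rw [← mul_sub, mul_eq_zero, sub_eq_zero]
  simp [hs0]

theorem supp_side (hs : M.Sph) (h : CycData M b0 f g π D)
    (hx : xx f g D = bd M (fun w => s * chi I w)) (T : Finset W) (hTne : T.Nonempty)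
    (hT : ∀ p, xx f g D p = 0 → (M.e (p.2 + 1) p.1 ∈ T ↔ M.e (p.2 + 2) p.1 ∈ T))
    (hTc : ∀ w ∈ T, ∀ w' ∈ T, chi I w = chi I w')
    (z : B × Fin 3 → ℝ) (hz : IsCyc M z)
    (hz0 : ∀ p, M.e (p.2 + 1) p.1 ∈ T → M.e (p.2 + 2) p.1 ∈ T → z p = 0) :
    ∃ m : W → ℝ, z = bd M m ∧ ∀ w ∈ T, m w = 0 := by
  classical
  obtain ⟨m, hm⟩ := hom1 M hs hz
  obtain ⟨w1, hw1⟩ := hTne
  set R : Finset W := T.filter fun w => m w = m w1 with hR
  have hRm : ∀ w, w ∈ R ↔ w ∈ T ∧ m w = m w1 := fun w => by simp [hR]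
  have hsupp : ∀ p, xx f g D p = 0 → bd M (chi R) p = 0 := by
    intro p hp
    have h1 := hT p hp
    unfold bd
    rw [sub_eq_zero, chi_eq_iff, hRm, hRm]
    by_cases h2 : M.e (p.2 + 1) p.1 ∈ T
    · have h3 := h1.1 h2
      have h4 := hz0 p h2 h3
      rw [hm] at h4
      unfold bd at h4
      have h5 : m (M.e (p.2 + 1) p.1) = m (M.e (p.2 + 2) p.1) := by linarith
      simp [h2, h3, h5]
    · have h3 : M.e (p.2 + 2) p.1 ∉ T := fun h => h2 (h1.2 h)
      simp [h2, h3]
  obtain ⟨l, hl⟩ := mult h (bd_cyc M (chi R)) hsupp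
  have hc : ∀ p, bd M (fun w => chi R w - l * (s * chi I w)) p = 0 := by
    intro p
    have h1 := hl p
    rw [hx] at h1
    unfold bd at h1 ⊢
    simp only at h1 ⊢
    linarith
  have hcst := const_of_bd_zero M hs.conn hc
  have hall : ∀ w ∈ T, m w = m w1 := by
    intro w hw
    have h1 := hcst w w1
    rw [hTc w hw w1 hw1] at h1
    have h2 : chi R w = chi R w1 := by linarith
    have h3 := (chi_eq_iff.1 h2).2 ((hRm w1).2 ⟨hw1, rfl⟩)
    exact ((hRm w).1 h3).2
  refine ⟨fun w => m w - m w1, ?_, fun w hw => by simp [hall w hw]⟩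
  rw [hm]
  funext p
  unfold bd
  ring

/-- around a vertex which is not on the cycle, all whites are on the same side -/
theorem around (hs0 : s ≠ 0) (hx : xx f g D = bd M (fun w => s * chi I w)) {v : V}
    (hv : ∀ p : B × Fin 3, M.c p.2 p.1 = v → xx f g D p = 0) {p q : B × Fin 3}
    (hp : M.c p.2 p.1 = v) (hq : M.c q.2 q.1 = v) :
    (M.e (p.2 + 1) p.1 ∈ I ↔ M.e (q.2 + 1) q.1 ∈ I) ∧
    (M.e (p.2 + 1) p.1 ∈ I ↔ M.e (q.2 + 2) q.1 ∈ I) := by
  have h1 : ∀ q : B × Fin 3, M.c q.2 q.1 = v →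
      (M.e (q.2 + 1) q.1 ∈ I ↔ M.e (q.2 + 2) q.1 ∈ I) :=
    fun q hq => (xx_zero_iff hs0 hx q).1 (hv q hq)
  have hj : p.2 = q.2 := M.cls _ _ _ _ (hp.trans hq.symm)
  obtain ⟨b, j⟩ := p
  obtain ⟨b', j'⟩ := q
  simp only at hj hp hq
  subst hj
  obtain ⟨n, hn⟩ := (M.same_iff j b b').1 (hp.trans hq.symm)
  have h2 : ∀ n : ℕ, (M.e (j + 1) b ∈ I ↔ M.e (j + 1) ((M.rho j ^ n) b) ∈ I) := by
    intro n
    induction n with
    | zero => exact Iff.rfl
    | succ n ih =>
      rw [pow_succ', Equiv.Perm.mul_apply, M.e_rho]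
      exact ih.trans (h1 ((M.rho j ^ n) b, j) (by simp only; rw [M.c_rho_pow]; exact hp))
  have h3 := h2 n
  rw [hn] at h3
  exact ⟨h3, h3.trans (h1 (b', j) hq)⟩

theorem on_cycle (h : CycData M b0 f g π D) {p : B × Fin 3} (hp : xx f g D p ≠ 0) :
    ∃ b ∈ D, M.c (g b) b = M.c p.2 p.1 := by
  obtain ⟨b, j⟩ := p
  have hb : b ∈ D := by
    by_contra hb
    exact hp (xx_off hb j)
  by_cases h1 : j = f b
  · subst h1
    exact ⟨π b, (h.inv b).1 hb, h.step b hb⟩
  · by_cases h2 : j = g b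
    · subst h2
      exact ⟨b, hb, rfl⟩
    · exact absurd (xx_h h1 h2) hp

/-- the vertices touched by a side -/
theorem touched (hs : M.Sph) (h : CycData M b0 f g π D) (hs0 : s ≠ 0)
    (hx : xx f g D = bd M (fun w => s * chi I w)) {S : Finset W} (hS : S = I ∨ S = Iᶜ)
    {p : B × Fin 3} (hp : p ∈ touchE M S) :
    (∃ i, M.c i b0 = M.c p.2 p.1 ∧ M.e (i + 1) b0 ∈ S) ∨
      ∃ b, b ≠ b0 ∧ M.c (g b) b = M.c p.2 p.1 ∧ 1 ≤ cnt M S b := by
  have hiff : ∀ w w', (w ∈ I ↔ w' ∈ I) → (w ∈ S ↔ w' ∈ S) := by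
    intro w w' hw
    rcases hS with rfl | rfl
    · exact hw
    · simp only [Finset.mem_compl]; rw [hw]
  by_cases hv : ∀ q : B × Fin 3, M.c q.2 q.1 = M.c p.2 p.1 → xx f g D q = 0
  · have hpS : M.e (p.2 + 1) p.1 ∈ S := by
      rcases (mem_touchE M).1 hp with h1 | h1
      · exact h1
      · exact (hiff _ _ (around hs0 hx hv rfl rfl).2).2 h1
    by_cases hR : ∃ i, M.c i b0 = M.c p.2 p.1
    · obtain ⟨i, hi⟩ := hR
      left
      refine ⟨i, hi, ?_⟩
      exact (hiff _ _ (around hs0 hx hv (p := p) (q := (b0, i)) rfl hi).1).1 hpS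
    · obtain ⟨b, hb, hbv⟩ := h.mat.surj hs _ (fun i hi => hR ⟨i, hi⟩)
      right
      refine ⟨b, hb, hbv, ?_⟩
      exact one_le_cnt M ((hiff _ _ (around hs0 hx hv (p := p) (q := (b, g b)) rfl hbv).1).1 hpS)
  · push Not at hv
    obtain ⟨q, hq1, hq2⟩ := hv
    obtain ⟨b, hb, hbv⟩ := on_cycle h hq2
    right
    refine ⟨b, D_ne_root h hb, hbv.trans hq1, ?_⟩
    have h1 : xx f g D (b, g b) ≠ 0 := by rw [xx_g hb (h.ne b hb)]; norm_num
    rw [Ne, xx_zero_iff hs0 hx] at h1
    simp only at h1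
    rcases hS with rfl | rfl
    · by_cases h2 : M.e (g b + 1) b ∈ S
      · exact one_le_cnt M h2
      · by_cases h3 : M.e (g b + 2) b ∈ S
        · exact one_le_cnt M h3
        · exact absurd (iff_of_false h2 h3) h1
    · by_cases h2 : M.e (g b + 1) b ∈ I
      · by_cases h3 : M.e (g b + 2) b ∈ I
        · exact absurd (iff_of_true h2 h3) h1
        · exact one_le_cnt M (j := g b + 2) (by simpa using h3)
      · exact one_le_cnt M (j := g b + 1) (by simpa using h2)

theorem touchV_le (hs : M.Sph) (h : CycData M b0 f g π D) (hs0 : s ≠ 0)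
    (hx : xx f g D = bd M (fun w => s * chi I w)) {S : Finset W} (hS : S = I ∨ S = Iᶜ) :
    (touchV M S).card ≤ (univ.filter fun b => 1 ≤ cnt M S b).card
      + (((univ.erase b0).filter fun b => 1 ≤ cnt M S b).card
        + (univ.filter fun i : Fin 3 => M.e (i + 1) b0 ∈ S).card) := by
  unfold touchV
  refine (Finset.card_union_le _ _).trans (Nat.add_le_add ?_ ?_)
  · have h1 : ((touchE M S).image fun p => (Sum.inl p.1 : B ⊕ V)) ⊆
        (univ.filter fun b => 1 ≤ cnt M S b).image Sum.inl := by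
      intro a ha
      obtain ⟨p, hp, rfl⟩ := Finset.mem_image.1 ha
      refine Finset.mem_image.2 ⟨p.1, ?_, rfl⟩
      simp only [Finset.mem_filter, Finset.mem_univ, true_and]
      rcases (mem_touchE M).1 hp with h1 | h1
      · exact one_le_cnt M h1
      · exact one_le_cnt M h1
    exact (Finset.card_le_card h1).trans Finset.card_image_le
  · have h1 : ((touchE M S).image fun p => (Sum.inr (M.c p.2 p.1) : B ⊕ V)) ⊆
        ((univ.erase b0).filter fun b => 1 ≤ cnt M S b).image (fun b => Sum.inr (M.c (g b) b)) ∪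
        (univ.filter fun i : Fin 3 => M.e (i + 1) b0 ∈ S).image (fun i => Sum.inr (M.c i b0)) := by
      intro a ha
      obtain ⟨p, hp, rfl⟩ := Finset.mem_image.1 ha
      rcases touched hs h hs0 hx hS hp with ⟨i, hi, hi2⟩ | ⟨b, hb, hb1, hb2⟩
      · refine Finset.mem_union_right _ (Finset.mem_image.2 ⟨i, ?_, by rw [hi]⟩)
        simp [hi2]
      · refine Finset.mem_union_left _ (Finset.mem_image.2 ⟨b, ?_, by rw [hb1]⟩)
        simp [hb, hb2]
    exact (Finset.card_le_card h1).trans ((Finset.card_union_le _ _).trans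
      (Nat.add_le_add Finset.card_image_le Finset.card_image_le))

/-- the numbers of blacks of the cycle with one and with two whites inside -/
theorem turns (hs : M.Sph) (h : CycData M b0 f g π D) (hs0 : s ≠ 0)
    (hx : xx f g D = bd M (fun w => s * chi I w)) (hI : I.Nonempty)
    (hr : ∀ j, M.e j b0 ∉ I) :
    (univ.filter fun b => cnt M I b = 1).card = (univ.filter fun b => cnt M I b = 2).card + 3 := by
  have hcr : cnt M I b0 = 0 := by
    unfold cnt
    simp [hr]
  have hcr' : cnt M Iᶜ b0 = 3 := by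
    have := cnt_compl M I b0
    omega
  -- first inequality
  have h1 : (touchE M I).card + 1 ≤ (touchV M I).card + I.card := by
    refine dim_ineq M I ?_ ?_
    · obtain ⟨w, hw⟩ := hI
      refine ⟨((M.e 0).symm w, 2), (mem_touchE M).2 (Or.inl ?_)⟩
      have h1 : (2 : Fin 3) + 1 = 0 := by decide
      simp only [h1]
      simpa using hw
    · intro z hz hz0
      obtain ⟨m, hm1, hm2⟩ := supp_side hs h hx Iᶜ ⟨M.e 0 b0, by simpa using hr 0⟩
        (fun p hp => by
          have := (xx_zero_iff hs0 hx p).1 hp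
          simp only [Finset.mem_compl]; rw [this])
        (fun w hw w' hw' => by
          rw [chi_eq_iff]
          rw [Finset.mem_compl] at hw hw'
          exact iff_of_false hw hw') z hz
        (fun p hp1 hp2 => hz0 p (by
          rw [mem_touchE, not_or]
          rw [Finset.mem_compl] at hp1 hp2
          exact ⟨hp1, hp2⟩))
      exact ⟨m, hm1, fun w hw => hm2 w (by simpa using hw)⟩
  have h2 : (touchE M Iᶜ).card + 1 ≤ (touchV M Iᶜ).card + (Iᶜ : Finset W).card := by
    refine dim_ineq M Iᶜ ?_ ?_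
    · refine ⟨(b0, 0), (mem_touchE M).2 (Or.inl ?_)⟩
      simpa using hr _
    · intro z hz hz0
      obtain ⟨m, hm1, hm2⟩ := supp_side hs h hx I hI
        (fun p hp => (xx_zero_iff hs0 hx p).1 hp)
        (fun w hw w' hw' => by
          rw [chi_eq_iff]
          exact iff_of_true hw hw') z hz
        (fun p hp1 hp2 => hz0 p (by
          rw [mem_touchE, not_or]
          simp only [Finset.mem_compl, not_not]
          exact ⟨hp1, hp2⟩))
      exact ⟨m, hm1, fun w hw => hm2 w (by simpa using hw)⟩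
  have h3 := touchV_le hs h hs0 hx (S := I) (Or.inl rfl)
  have h4 := touchV_le hs h hs0 hx (S := Iᶜ) (Or.inr rfl)
  have h5 : (univ.filter fun i : Fin 3 => M.e (i + 1) b0 ∈ I).card = 0 := by
    simp [hr]
  have h6 : (univ.filter fun i : Fin 3 => M.e (i + 1) b0 ∈ Iᶜ).card ≤ 3 := by
    refine (Finset.card_le_univ _).trans ?_
    simp
  have h7 : ((univ.erase b0).filter fun b => 1 ≤ cnt M I b).card
      ≤ (univ.filter fun b => 1 ≤ cnt M I b).card :=
    Finset.card_le_card (Finset.filter_subset_filter _ (Finset.erase_subset _ _))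
  have h8 : ((univ.erase b0).filter fun b => 1 ≤ cnt M Iᶜ b).card + 1
      = (univ.filter fun b => 1 ≤ cnt M Iᶜ b).card := by
    have he : ((univ.erase b0).filter fun b => 1 ≤ cnt M Iᶜ b)
        = (univ.filter fun b => 1 ≤ cnt M Iᶜ b).erase b0 := by
      ext b
      simp only [Finset.mem_filter, Finset.mem_erase, Finset.mem_univ, and_true, true_and]
    rw [he, Finset.card_erase_add_one]
    simp [hcr']
  have h9 := count M I
  have h10 := count M Iᶜ
  have h11 : (univ.filter fun b => cnt M Iᶜ b = 1) = (univ.filter fun b => cnt M I b = 2) := by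
    refine Finset.filter_congr fun b _ => ?_
    have := cnt_compl M I b
    omega
  have h12 : (univ.filter fun b => cnt M Iᶜ b = 2) = (univ.filter fun b => cnt M I b = 1) := by
    refine Finset.filter_congr fun b _ => ?_
    have := cnt_compl M I b
    omega
  rw [h11, h12] at h10
  omega

end Vale.Agent.P039.Bn.H322
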