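import Vale.Agent.P039.Bn.H322.Cyc

/-! Euler's formula for the inside of an alternating cycle. -/

set_option linter.unusedSectionVars false
set_option linter.unusedSimpArgs false

namespace Vale.Agent.P039.Bn.H322

open Vale.Agent.P039.Bn Finset

variable {B W V : Type} [Fintype B] [Fintype W] [Fintype V]
  [DecidableEq B] [DecidableEq W] [DecidableEq V]

variable (M : PMap B W V)

/-- edges touching `S` -/
def touchE (S : Finset W) : Finset (B × Fin 3) :=
  univ.filter fun p => M.e (p.2 + 1) p.1 ∈ S ∨ M.e (p.2 + 2) p.1 ∈ S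

/-- blacks and vertices touching `S` -/
def touchV (S : Finset W) : Finset (B ⊕ V) :=
  (touchE M S).image (fun p => Sum.inl p.1) ∪ (touchE M S).image (fun p => Sum.inr (M.c p.2 p.1))

theorem mem_touchE {S : Finset W} {p : B × Fin 3} :
    p ∈ touchE M S ↔ M.e (p.2 + 1) p.1 ∈ S ∨ M.e (p.2 + 2) p.1 ∈ S := by simp [touchE]

theorem incM_inl (x : B × Fin 3 → ℝ) (b : B) :
    (incM M).mulVec x (Sum.inl b) = ∑ j, x (b, j) := by
  simp only [Matrix.mulVec, dotProduct, incM, ite_mul, one_mul, zero_mul]
  rw [Fintype.sum_prod_type, Finset.sum_eq_single b]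
  · simp
  · intro c _ hc
    simp [hc]
  · simp

theorem incM_inr (x : B × Fin 3 → ℝ) (v : V) :
    (incM M).mulVec x (Sum.inr v) = ∑ p : B × Fin 3, (if M.c p.2 p.1 = v then x p else 0) := by
  simp [Matrix.mulVec, dotProduct, incM]

/-- extension by zero -/
noncomputable def extL (E : Finset (B × Fin 3)) : (E → ℝ) →ₗ[ℝ] (B × Fin 3 → ℝ) where
  toFun y p := if h : p ∈ E then y ⟨p, h⟩ else 0
  map_add' x y := by
    funext p
    by_cases h : p ∈ E <;> simp [h]
  map_smul' r x := by
    funext p
    by_cases h : p ∈ E <;> simp [h]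

theorem extL_in {E : Finset (B × Fin 3)} (y : E → ℝ) {p : B × Fin 3} (h : p ∈ E) :
    extL E y p = y ⟨p, h⟩ := by simp [extL, h]

theorem extL_out {E : Finset (B × Fin 3)} (y : E → ℝ) {p : B × Fin 3} (h : p ∉ E) :
    extL E y p = 0 := by simp [extL, h]

theorem dim_ineq (S : Finset W) (hne : (touchE M S).Nonempty)
    (hS : ∀ z, IsCyc M z → (∀ p, p ∉ touchE M S → z p = 0) →
      ∃ m : W → ℝ, z = bd M m ∧ ∀ w, w ∉ S → m w = 0) :
    (touchE M S).card + 1 ≤ (touchV M S).card + S.card := by
  classical
  set E := touchE M S with hE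
  set A := touchV M S with hA
  let L : (E → ℝ) →ₗ[ℝ] ((A ⊕ S) → ℝ) :=
    { toFun := fun y a => match a with
        | Sum.inl a => (incM M).mulVec (extL E y) a.1
        | Sum.inr w => curl M (extL E y) w.1
      map_add' := by
        intro x y
        funext a
        cases a with
        | inl a => simp only [map_add, Matrix.mulVec_add, Pi.add_apply]
        | inr w =>
          have := congrFun ((curlL M).map_add (extL E x) (extL E y)) w.1
          simp only [map_add, Pi.add_apply]
          exact this
      map_smul' := by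
        intro r x
        funext a
        cases a with
        | inl a => simp only [map_smul, Matrix.mulVec_smul, Pi.smul_apply, RingHom.id_apply]
        | inr w =>
          have := congrFun ((curlL M).map_smul r (extL E x)) w.1
          simp only [map_smul, Pi.smul_apply, RingHom.id_apply]
          exact this }
  have hLl : ∀ y a, L y (Sum.inl a) = (incM M).mulVec (extL E y) a.1 := fun y a => rfl
  have hLr : ∀ y w, L y (Sum.inr w) = curl M (extL E y) w.1 := fun y w => rfl
  let sg : B ⊕ V → ℝ := fun a => match a with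
    | Sum.inl _ => 1
    | Sum.inr _ => -1
  let φ : ((A ⊕ S) → ℝ) →ₗ[ℝ] ℝ :=
    { toFun := fun z => ∑ a : A, sg a.1 * z (Sum.inl a)
      map_add' := by
        intro x y
        simp only [Pi.add_apply, mul_add, Finset.sum_add_distrib]
      map_smul' := by
        intro r x
        simp only [Pi.smul_apply, smul_eq_mul, RingHom.id_apply, Finset.mul_sum]
        exact Finset.sum_congr rfl fun a _ => by ring }
  have hφ : ∀ z, φ z = ∑ a : A, sg a.1 * z (Sum.inl a) := fun z => rfl
  -- outside `A` the incidence vanishes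
  have hout : ∀ y : E → ℝ, ∀ a, a ∉ A → (incM M).mulVec (extL E y) a = 0 := by
    intro y a ha
    cases a with
    | inl b =>
      rw [incM_inl]
      refine Finset.sum_eq_zero fun j _ => extL_out y ?_
      intro hp
      exact ha (Finset.mem_union_left _ (Finset.mem_image.2 ⟨(b, j), hp, rfl⟩))
    | inr v =>
      rw [incM_inr]
      refine Finset.sum_eq_zero fun p _ => ?_
      split_ifs with hv
      · refine extL_out y ?_
        intro hp
        exact ha (Finset.mem_union_right _ (Finset.mem_image.2 ⟨p, hp, by rw [hv]⟩))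
      · rfl
  have hker : LinearMap.range L ≤ LinearMap.ker φ := by
    rintro z ⟨y, rfl⟩
    rw [LinearMap.mem_ker, hφ]
    simp only [hLl]
    rw [Finset.sum_coe_sort A (fun a => sg a * (incM M).mulVec (extL E y) a),
      Finset.sum_subset (Finset.subset_univ A) (fun a _ ha => by rw [hout y a ha, mul_zero]),
      Fintype.sum_sum_type]
    simp only [incM_inl, incM_inr, sg, one_mul]
    rw [← Fintype.sum_prod_type (f := fun p => extL E y p)]
    simp only [neg_mul, one_mul, Finset.sum_neg_distrib]
    rw [Finset.sum_comm]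
    simp
  have hinj : Function.Injective L := by
    rw [← LinearMap.ker_eq_bot, LinearMap.ker_eq_bot']
    intro y hy
    have hcyc : IsCyc M (extL E y) := by
      rw [isCyc_iff]
      funext a
      by_cases ha : a ∈ A
      · have := congrFun hy (Sum.inl ⟨a, ha⟩)
        rw [hLl] at this
        exact this
      · exact hout y a ha
    obtain ⟨m, hm, hm0⟩ := hS _ hcyc fun p hp => extL_out y hp
    have h1 : ∑ p, extL E y p * extL E y p = 0 := by
      have h2 := stokes M m (extL E y)
      rw [← hm] at h2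
      rw [h2]
      refine Finset.sum_eq_zero fun w _ => ?_
      by_cases hw : w ∈ S
      · have := congrFun hy (Sum.inr ⟨w, hw⟩)
        rw [hLr] at this
        simp only [Pi.zero_apply] at this
        rw [this, mul_zero]
      · rw [hm0 w hw, zero_mul]
    have h2 := (Finset.sum_eq_zero_iff_of_nonneg (fun p _ => mul_self_nonneg (extL E y p))).1 h1
    funext p
    have h3 := h2 p.1 (Finset.mem_univ _)
    rw [mul_self_eq_zero, extL_in y p.2] at h3
    exact h3
  have h1 := LinearMap.finrank_range_of_inj hinj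
  have h2 := Submodule.finrank_mono hker
  have h3 := LinearMap.finrank_range_add_finrank_ker φ
  have h4 : 1 ≤ Module.finrank ℝ (LinearMap.range φ) := by
    rw [Nat.one_le_iff_ne_zero]
    intro h0
    have hbot : LinearMap.range φ = ⊥ := Submodule.finrank_eq_zero.1 h0
    obtain ⟨p, hp⟩ := hne
    have hpA : (Sum.inl p.1 : B ⊕ V) ∈ A :=
      Finset.mem_union_left _ (Finset.mem_image.2 ⟨p, hp, rfl⟩)
    have hz : φ (Pi.single (Sum.inl ⟨Sum.inl p.1, hpA⟩) 1) = 0 := by
      have : φ (Pi.single (Sum.inl ⟨Sum.inl p.1, hpA⟩) 1) ∈ LinearMap.range φ := ⟨_, rfl⟩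
      rw [hbot] at this
      exact this
    rw [hφ, Finset.sum_eq_single ⟨Sum.inl p.1, hpA⟩] at hz
    · simp [sg] at hz
    · intro a _ ha
      rw [Pi.single_eq_of_ne, mul_zero]
      intro hh
      exact ha (Sum.inl_injective hh)
    · intro hh
      exact absurd (Finset.mem_univ _) hh
  rw [Module.finrank_fintype_fun_eq_card] at h1 h3
  simp only [Fintype.card_coe, Fintype.card_sum] at h1 h3
  omega

/-- number of whites of `b` in `S` -/
def cnt (S : Finset W) (b : B) : ℕ := (univ.filter fun j => M.e j b ∈ S).card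

theorem cnt_eq (S : Finset W) (b : B) : cnt M S b =
    (if M.e 0 b ∈ S then 1 else 0) + (if M.e 1 b ∈ S then 1 else 0)
      + (if M.e 2 b ∈ S then 1 else 0) := by
  unfold cnt
  rw [Finset.card_filter, Fin.sum_univ_three]

theorem sum_cnt (S : Finset W) : ∑ b, cnt M S b = 3 * S.card := by
  have h : ∀ j, ∑ b, (if M.e j b ∈ S then 1 else 0) = S.card := by
    intro j
    rw [Equiv.sum_comp (M.e j) (fun w => if w ∈ S then 1 else 0)]
    simp
  simp only [cnt_eq, Finset.sum_add_distrib, h]
  ring

theorem count (S : Finset W) :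
    3 * (touchE M S).card + (univ.filter fun b => cnt M S b = 1).card
      = 6 * (univ.filter fun b => 1 ≤ cnt M S b).card + 3 * S.card
        + (univ.filter fun b => cnt M S b = 2).card := by
  rw [← sum_cnt M S]
  have h1 : (touchE M S).card = ∑ b, ∑ j : Fin 3,
      (if M.e (j + 1) b ∈ S ∨ M.e (j + 2) b ∈ S then 1 else 0) := by
    unfold touchE
    rw [Finset.card_filter, Fintype.sum_prod_type]
  rw [h1, Finset.card_filter, Finset.card_filter, Finset.card_filter, Finset.mul_sum,
    Finset.mul_sum, ← Finset.sum_add_distrib, ← Finset.sum_add_distrib, ← Finset.sum_add_distrib]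
  refine Finset.sum_congr rfl fun b _ => ?_
  rw [cnt_eq, Fin.sum_univ_three]
  have h1 : (0 : Fin 3) + 1 = 1 := by decide
  have h2 : (0 : Fin 3) + 2 = 2 := by decide
  have h3 : (1 : Fin 3) + 1 = 2 := by decide
  have h4 : (1 : Fin 3) + 2 = 0 := by decide
  have h5 : (2 : Fin 3) + 1 = 0 := by decide
  have h6 : (2 : Fin 3) + 2 = 1 := by decide
  rw [h1, h2, h3, h4, h5, h6]
  by_cases a0 : M.e 0 b ∈ S <;> by_cases a1 : M.e 1 b ∈ S <;> by_cases a2 : M.e 2 b ∈ S <;>
    simp [a0, a1, a2]

theorem cnt_compl (S : Finset W) (b : B) : cnt M Sᶜ b + cnt M S b = 3 := by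
  rw [cnt_eq, cnt_eq]
  by_cases a0 : M.e 0 b ∈ S <;> by_cases a1 : M.e 1 b ∈ S <;> by_cases a2 : M.e 2 b ∈ S <;>
    simp [a0, a1, a2]

theorem one_le_cnt {S : Finset W} {b : B} {j : Fin 3} (h : M.e j b ∈ S) : 1 ≤ cnt M S b := by
  unfold cnt
  exact Finset.card_pos.2 ⟨j, by simp [h]⟩

end Vale.Agent.P039.Bn.H322
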