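import Vale.Agent.P039.Bn.Defs
import Mathlib

/-! First homology of the hexagonal complex of a web on the sphere. -/

set_option linter.unusedSectionVars false

namespace Vale.Agent.P039.Bn.H322

open Vale.Agent.P039.Bn Finset

variable {B W V : Type} [Fintype B] [Fintype W] [Fintype V]
  [DecidableEq B] [DecidableEq W] [DecidableEq V]

variable (M : PMap B W V)

/-- boundary of a 2-chain on the hexagons -/
def bd (n : W → ℝ) : B × Fin 3 → ℝ := fun p => n (M.e (p.2 + 1) p.1) - n (M.e (p.2 + 2) p.1)

/-- cycles -/
structure IsCyc (x : B × Fin 3 → ℝ) : Prop where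
  blk : ∀ b, ∑ j, x (b, j) = 0
  vtx : ∀ v, ∑ p : B × Fin 3, (if M.c p.2 p.1 = v then x p else 0) = 0

omit [Fintype B] [Fintype W] [Fintype V] [DecidableEq B] [DecidableEq W] [DecidableEq V] in
theorem bd_blk (n : W → ℝ) (b : B) : ∑ j, bd M n (b, j) = 0 := by
  simp only [bd, Fin.sum_univ_three]
  have h1 : (0 : Fin 3) + 1 = 1 := by decide
  have h2 : (0 : Fin 3) + 2 = 2 := by decide
  have h3 : (1 : Fin 3) + 1 = 2 := by decide
  have h4 : (1 : Fin 3) + 2 = 0 := by decide
  have h5 : (2 : Fin 3) + 1 = 0 := by decide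
  have h6 : (2 : Fin 3) + 2 = 1 := by decide
  rw [h1, h2, h3, h4, h5, h6]; ring

omit [Fintype W] [Fintype V] [DecidableEq B] [DecidableEq W] in
theorem bd_vtx_class (n : W → ℝ) (v : V) (j : Fin 3) :
    ∑ b, (if M.c j b = v then bd M n (b, j) else 0) = 0 := by
  have h : ∑ b, (if M.c j b = v then n (M.e (j + 1) b) else 0)
      = ∑ b, (if M.c j b = v then n (M.e (j + 2) b) else 0) := by
    rw [← Equiv.sum_comp (M.rho j)]
    refine Finset.sum_congr rfl fun b _ => ?_
    rw [M.c_rho, M.e_rho]
  have h2 : ∀ b, (if M.c j b = v then bd M n (b, j) else 0)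
      = (if M.c j b = v then n (M.e (j + 1) b) else 0)
        - (if M.c j b = v then n (M.e (j + 2) b) else 0) := by
    intro b; unfold bd; split_ifs <;> simp
  rw [Finset.sum_congr rfl fun b _ => h2 b, Finset.sum_sub_distrib, h, sub_self]

omit [Fintype W] [Fintype V] [DecidableEq B] [DecidableEq W] in
theorem bd_cyc (n : W → ℝ) : IsCyc M (bd M n) := by
  refine ⟨bd_blk M n, fun v => ?_⟩
  rw [Fintype.sum_prod_type_right]
  exact Finset.sum_eq_zero fun j _ => bd_vtx_class M n v j

omit [Fintype W] [Fintype V] [DecidableEq B] [DecidableEq W] [DecidableEq V] in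
/-- going around: a property of whites which is the same at all three whites of every black -/
theorem eq_of_local {α : Type*} (hc : M.Conn) {n : W → α}
    (h : ∀ b j, n (M.e (j + 1) b) = n (M.e (j + 2) b)) : ∀ w w', n w = n w' := by
  have h0 : ∀ b i j, n (M.e i b) = n (M.e j b) := by
    intro b i j
    rcases fcase j i with rfl | rfl | rfl
    · rfl
    · have := h b (i + 2)
      rw [f21, f22] at this; exact this
    · have := h b (i + 1)
      rw [f11, f12] at this; exact this.symm
  have h1 : ∀ j x, n (M.e 0 (M.rho j x)) = n (M.e 0 x) := by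
    intro j x
    rw [h0 (M.rho j x) 0 (j + 1), M.e_rho, h0 x (j + 2) 0]
  have h2 : ∀ j (k : ℕ) x, n (M.e 0 ((M.rho j ^ k) x)) = n (M.e 0 x) := by
    intro j k x
    induction k with
    | zero => rfl
    | succ k ih => rw [pow_succ', Equiv.Perm.mul_apply, h1, ih]
  have h3 : ∀ b b', n (M.e 0 b) = n (M.e 0 b') := by
    intro b b'
    have := hc b b'
    induction this with
    | rel x y hxy =>
      obtain ⟨j, hj⟩ := hxy
      obtain ⟨k, hk⟩ := (M.same_iff j x y).1 hj
      rw [← hk, h2]
    | refl x => rfl
    | symm x y _ ih => exact ih.symm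
    | trans x y z _ _ ih1 ih2 => exact ih1.trans ih2
  intro w w'
  have := h3 ((M.e 0).symm w) ((M.e 0).symm w')
  simpa using this

omit [Fintype W] [Fintype V] [DecidableEq B] [DecidableEq W] [DecidableEq V] in
theorem const_of_bd_zero (hc : M.Conn) {n : W → ℝ} (h : ∀ p, bd M n p = 0) :
    ∀ w w', n w = n w' := by
  refine eq_of_local M hc fun b j => ?_
  have := h (b, j)
  unfold bd at this
  linarith

/-- boundary as a linear map -/
def bdL : (W → ℝ) →ₗ[ℝ] (B × Fin 3 → ℝ) where
  toFun := bd M
  map_add' x y := by funext p; simp only [bd, Pi.add_apply]; ring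
  map_smul' r x := by funext p; simp only [bd, Pi.smul_apply, smul_eq_mul, RingHom.id_apply]; ring

/-- the incidence matrix -/
def incM : Matrix (B ⊕ V) (B × Fin 3) ℝ := fun a p =>
  match a with
  | Sum.inl b => if p.1 = b then 1 else 0
  | Sum.inr v => if M.c p.2 p.1 = v then 1 else 0

omit [Fintype W] [Fintype V] [DecidableEq W] in
theorem isCyc_iff (x : B × Fin 3 → ℝ) : IsCyc M x ↔ (incM M).mulVec x = 0 := by
  constructor
  · intro h
    funext a
    cases a with
    | inl b =>
      have := h.blk b
      simp only [Matrix.mulVec, dotProduct, incM, Pi.zero_apply, ite_mul, one_mul, zero_mul]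
      rw [Fintype.sum_prod_type]
      rw [Finset.sum_eq_single b]
      · simpa using this
      · intro c _ hc
        simp [hc]
      · simp
    | inr v =>
      have := h.vtx v
      simpa [Matrix.mulVec, dotProduct, incM] using this
  · intro h
    constructor
    · intro b
      have := congrFun h (Sum.inl b)
      simp only [Matrix.mulVec, dotProduct, incM, Pi.zero_apply, ite_mul, one_mul, zero_mul] at this
      rw [Fintype.sum_prod_type] at this
      rw [Finset.sum_eq_single b] at this
      · simpa using this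
      · intro c _ hc
        simp [hc]
      · simp
    · intro v
      have := congrFun h (Sum.inr v)
      simpa [Matrix.mulVec, dotProduct, incM] using this

omit [Fintype W] [DecidableEq W] in
theorem ker_transpose_le (hc : M.Conn) [Nonempty B] :
    Module.finrank ℝ (LinearMap.ker (incM M).transpose.mulVecLin) ≤ 1 := by
  obtain ⟨b0⟩ := ‹Nonempty B›
  -- every kernel element is a multiple of (1, -1)
  have hk : ∀ z : B ⊕ V → ℝ, (incM M).transpose.mulVec z = 0 →
      ∀ b j, z (Sum.inl b) + z (Sum.inr (M.c j b)) = 0 := by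
    intro z hz b j
    have := congrFun hz (b, j)
    simp only [Matrix.mulVec, dotProduct, Matrix.transpose_apply, incM, Pi.zero_apply,
      Fintype.sum_sum_type, ite_mul, one_mul, zero_mul] at this
    simpa using this
  have hconst : ∀ z : B ⊕ V → ℝ, (incM M).transpose.mulVec z = 0 →
      ∀ b b', z (Sum.inl b) = z (Sum.inl b') := by
    intro z hz b b'
    have := hc b b'
    induction this with
    | rel x y hxy =>
      obtain ⟨j, hj⟩ := hxy
      have h1 := hk z hz x j
      have h2 := hk z hz y j
      rw [hj] at h1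
      linarith
    | refl x => rfl
    | symm x y _ ih => exact ih.symm
    | trans x y z _ _ ih1 ih2 => exact ih1.trans ih2
  refine finrank_le_one (⟨fun a => match a with | Sum.inl _ => 1 | Sum.inr _ => -1, ?_⟩ :
    LinearMap.ker (incM M).transpose.mulVecLin) ?_
  · rw [LinearMap.mem_ker]
    funext p
    show (incM M).transpose.mulVec _ p = 0
    simp only [Matrix.mulVec, dotProduct, Matrix.transpose_apply, incM, Fintype.sum_sum_type,
      ite_mul, one_mul, zero_mul]
    simp
  · rintro ⟨z, hz⟩
    rw [LinearMap.mem_ker, Matrix.mulVecLin_apply] at hz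
    refine ⟨z (Sum.inl b0), ?_⟩
    ext a
    cases a with
    | inl b => simp [hconst z hz b b0]
    | inr v =>
      obtain ⟨j, b, hb⟩ := M.surj v
      have h1 := hk z hz b j
      rw [hb] at h1
      have h2 := hconst z hz b b0
      simp only [SetLike.mk_smul_mk, Pi.smul_apply, smul_eq_mul]
      linarith

omit [Fintype V] [DecidableEq B] [DecidableEq W] [DecidableEq V] in
theorem ker_bd_le (hc : M.Conn) : Module.finrank ℝ (LinearMap.ker (bdL M)) ≤ 1 := by
  refine finrank_le_one (⟨fun _ => 1, ?_⟩ : LinearMap.ker (bdL M)) ?_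
  · rw [LinearMap.mem_ker]
    funext p
    simp [bdL, bd]
  · rintro ⟨z, hz⟩
    rw [LinearMap.mem_ker] at hz
    have hz' : ∀ p, bd M z p = 0 := fun p => congrFun hz p
    have hcst := const_of_bd_zero M hc hz'
    by_cases hW : Nonempty W
    · obtain ⟨w0⟩ := hW
      refine ⟨z w0, ?_⟩
      ext w
      simp [hcst w w0]
    · refine ⟨0, ?_⟩
      ext w
      exact absurd ⟨w⟩ hW

include M in
theorem card_W : Fintype.card W = Fintype.card B := (Fintype.card_congr (M.e 0)).symm

theorem finrank_cyc_le (hs : M.Sph) [Nonempty B] :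
    Module.finrank ℝ (LinearMap.ker (incM M).mulVecLin) + 1 ≤ Fintype.card B := by
  have h1 := ker_transpose_le M hs.conn
  have h2 := LinearMap.finrank_range_add_finrank_ker (incM M).mulVecLin
  have h3 := LinearMap.finrank_range_add_finrank_ker (incM M).transpose.mulVecLin
  have h4 : Module.finrank ℝ (LinearMap.range (incM M).transpose.mulVecLin)
      = Module.finrank ℝ (LinearMap.range (incM M).mulVecLin) := Matrix.rank_transpose _
  rw [Module.finrank_fintype_fun_eq_card] at h2 h3
  simp only [Fintype.card_prod, Fintype.card_fin, Fintype.card_sum, hs.card] at h2 h3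
  omega

/-- the first homology vanishes -/
theorem hom1 (hs : M.Sph) {x : B × Fin 3 → ℝ} (hx : IsCyc M x) : ∃ n, x = bd M n := by
  by_cases hB : Nonempty B
  · have hle : LinearMap.range (bdL M) ≤ LinearMap.ker (incM M).mulVecLin := by
      rintro y ⟨n, rfl⟩
      rw [LinearMap.mem_ker]
      exact (isCyc_iff M _).1 (bd_cyc M n)
    have h1 := finrank_cyc_le M hs
    have h2 := LinearMap.finrank_range_add_finrank_ker (bdL M)
    have h3 := ker_bd_le M hs.conn
    rw [Module.finrank_fintype_fun_eq_card, card_W M] at h2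
    have heq := Submodule.eq_of_le_of_finrank_le hle (by omega)
    have hm : x ∈ LinearMap.ker (incM M).mulVecLin := by
      rw [LinearMap.mem_ker]; exact (isCyc_iff M _).1 hx
    rw [← heq] at hm
    obtain ⟨n, hn⟩ := hm
    exact ⟨n, hn.symm⟩
  · refine ⟨0, ?_⟩
    funext p
    exact absurd ⟨p.1⟩ hB

/-- circulation around the hexagon of `w` -/
def curl (u : B × Fin 3 → ℝ) : W → ℝ := fun w =>
  ∑ i, (u ((M.e i).symm w, i + 2) - u ((M.e i).symm w, i + 1))

omit [Fintype V] [DecidableEq B] [DecidableEq W] [DecidableEq V] in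
theorem stokes (n : W → ℝ) (u : B × Fin 3 → ℝ) :
    ∑ p, bd M n p * u p = ∑ w, n w * curl M u w := by
  have h1 : ∑ w, n w * curl M u w
      = ∑ i, ∑ b, n (M.e i b) * (u (b, i + 2) - u (b, i + 1)) := by
    simp only [curl, Finset.mul_sum]
    rw [Finset.sum_comm]
    refine Finset.sum_congr rfl fun i _ => ?_
    rw [← Equiv.sum_comp (M.e i)]
    simp
  rw [h1, Fintype.sum_prod_type_right]
  simp only [bd, Fin.sum_univ_three]
  have h1 : (0 : Fin 3) + 1 = 1 := by decide
  have h2 : (0 : Fin 3) + 2 = 2 := by decide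
  have h3 : (1 : Fin 3) + 1 = 2 := by decide
  have h4 : (1 : Fin 3) + 2 = 0 := by decide
  have h5 : (2 : Fin 3) + 1 = 0 := by decide
  have h6 : (2 : Fin 3) + 2 = 1 := by decide
  rw [h1, h2, h3, h4, h5, h6]
  rw [← Finset.sum_add_distrib, ← Finset.sum_add_distrib, ← Finset.sum_add_distrib,
    ← Finset.sum_add_distrib]
  refine Finset.sum_congr rfl fun b _ => ?_
  ring

/-- circulation as a linear map -/
def curlL : (B × Fin 3 → ℝ) →ₗ[ℝ] (W → ℝ) where
  toFun := curl M
  map_add' x y := by
    funext w; simp only [curl, Pi.add_apply, Fin.sum_univ_three]; ring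
  map_smul' r x := by
    funext w; simp only [curl, Pi.smul_apply, smul_eq_mul, RingHom.id_apply,
      Fin.sum_univ_three]; ring

/-- every function of total zero is a circulation -/
theorem exists_u (hc : M.Conn) (k : W → ℝ) (hk : ∑ w, k w = 0) : ∃ u, curl M u = k := by
  by_contra hne
  push Not at hne
  -- separate k from the range by a linear functional
  have hnot : k ∉ LinearMap.range (curlL M) := by
    rintro ⟨u, hu⟩
    exact hne u hu
  obtain ⟨f, hf1, hf2⟩ := Submodule.exists_le_ker_of_notMem hnot
  -- f w = n w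
  set n : W → ℝ := fun w => f (Pi.single w 1) with hn
  have hfn : ∀ y : W → ℝ, f y = ∑ w, n w * y w := by
    intro y
    conv_lhs => rw [show y = ∑ w, y w • (Pi.single w (1 : ℝ) : W → ℝ) by
      funext w'
      simp [Finset.sum_apply, Pi.single_apply]]
    rw [map_sum]
    refine Finset.sum_congr rfl fun w _ => ?_
    rw [map_smul, smul_eq_mul, mul_comm]
  have hzero : ∀ p, bd M n p = 0 := by
    intro p
    have h1 : f (curl M (Pi.single p 1)) = 0 := by
      have : curl M (Pi.single p 1) ∈ LinearMap.range (curlL M) := ⟨Pi.single p 1, rfl⟩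
      exact hf2 this
    rw [hfn, ← stokes] at h1
    rw [Finset.sum_eq_single p] at h1
    · simpa using h1
    · intro q _ hq
      simp [Pi.single_apply, hq]
    · simp
  have hcst := const_of_bd_zero M hc hzero
  apply hf1
  rw [hfn]
  by_cases hW : Nonempty W
  · obtain ⟨w0⟩ := hW
    have : ∀ w, n w * k w = n w0 * k w := fun w => by rw [hcst w w0]
    rw [Finset.sum_congr rfl fun w _ => this w, ← Finset.mul_sum, hk, mul_zero]
  · refine Finset.sum_eq_zero fun w _ => ?_
    exact absurd ⟨w⟩ hW

end Vale.Agent.P039.Bn.H322
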